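import Vale.Agent.P017.R3.D1
import Vale.Agent.P017.R2.H816.Red

/-!
# P017 density project: D1a, the first half of the descent of system 2
-/

open Finset

namespace Vale.Agent.P017.R3.H985

open Vale.Agent.P017.R2.H985 (bit PF Pat sym Mat cork)
open Vale.Agent.P017.R2.H816
open Vale.Agent.P017.H185

theorem ker_zero {V : Type} [Fintype V] [DecidableEq V] (M : Matrix V V (ZMod 2))
    (h : ck M = 0) (x : V → ZMod 2) (hx : M.mulVec x = 0) : x = 0 := by
  unfold ck at h
  have h1 : LinearMap.ker (Matrix.mulVecLin M) = ⊥ := Submodule.finrank_eq_zero.mp h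
  have h2 : x ∈ LinearMap.ker (Matrix.mulVecLin M) := by
    rw [LinearMap.mem_ker, Matrix.mulVecLin_apply, hx]
  rw [h1] at h2
  exact (Submodule.mem_bot _).mp h2

theorem ext_mulVec {V : Type} [Fintype V] (M : Matrix V V (ZMod 2)) (φ ψ : V → ZMod 2)
    (w : ZMod 2) (x : Option V → ZMod 2) :
    (∀ q, (ext M φ ψ w).mulVec x (some q) = M.mulVec (fun a => x (some a)) q + φ q * x none) ∧
    (ext M φ ψ w).mulVec x none = (∑ q, ψ q * x (some q)) + w * x none := by
  constructor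
  · intro q
    rw [Matrix.mulVec, dotProduct, Fintype.sum_option, Matrix.mulVec, dotProduct, add_comm]
    rfl
  · rw [Matrix.mulVec, dotProduct, Fintype.sum_option, add_comm]
    rfl

/-- symbol of a divisor, or of the divisor without the prime `q` -/
theorem bit_dvd {D b q : ℕ} (hD : Squarefree D) (hb : b ∣ D) (hq : q.Prime) :
    (¬ q ∣ b → bit (b : ℤ) q = ∑ r ∈ D.primeFactors, if r ∣ b then bit (r : ℤ) q else 0) ∧
    (∀ β : ℕ, b = q * β → bit (β : ℤ) q =
      ∑ r ∈ D.primeFactors, if r ∣ b then bit (r : ℤ) q else 0) := by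
  have h1 : ∀ c : ℕ, c ∣ D → ¬ q ∣ c →
      bit (c : ℤ) q = ∑ r ∈ D.primeFactors, if r ∣ c then bit (r : ℤ) q else 0 := by
    intro c hc hqc
    have h2 := prod_if_dvd hD hc
    have h3 : ∀ r ∈ D.primeFactors, jacobiSym (if r ∣ c then (r : ℤ) else 1) q ≠ 0 := by
      intro r hr
      split_ifs with h
      · exact jac_ne (Nat.prime_of_mem_primeFactors hr) hq (fun h' => hqc (h' ▸ h))
      · exact jac_one_ne _
    have h4 : (c : ℤ) = ∏ r ∈ D.primeFactors, (if r ∣ c then (r : ℤ) else 1) := by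
      conv_lhs => rw [← h2]
      push_cast
      rfl
    rw [h4, bit_prod _ _ h3]
    apply sum_congr rfl
    intro r hr
    split_ifs with h
    · rfl
    · exact bit_one q
  refine ⟨h1 b hb, ?_⟩
  intro β hβ
  have hβD : β ∣ D := (Dvd.intro_left q hβ.symm).trans hb
  have hqβ : ¬ q ∣ β := by
    intro h
    have : q * q ∣ D := (Nat.mul_dvd_mul_left q h).trans (hβ ▸ hb)
    exact hq.one_lt.ne' (Nat.isUnit_iff.mp (hD q this))
  rw [h1 β hβD hqβ]
  apply sum_congr rfl
  intro r hr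
  have hr' := Nat.prime_of_mem_primeFactors hr
  by_cases hrq : r = q
  · subst hrq
    rw [if_neg hqβ, if_pos ⟨β, hβ⟩, bit_self hr']
  · have : r ∣ b ↔ r ∣ β := by
      rw [hβ]
      constructor
      · intro h
        rcases (Nat.Prime.dvd_mul hr').mp h with h | h
        · exact absurd ((Nat.prime_dvd_prime_iff_eq hr' hq).mp h) hrq
        · exact h
      · intro h; exact h.mul_left q
    by_cases h : r ∣ b
    · rw [if_pos h, if_pos (this.mp h)]
    · rw [if_neg h, if_neg (fun h' => h (this.mpr h'))]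

/-- sum over the prime factors of `n p c` -/
theorem sum_pf {n p c : ℕ} (hn : n ≠ 0) (hp : p.Prime) (hc : c.Prime) (hpn : ¬ p ∣ n)
    (hcn : ¬ c ∣ n) (hpc : p ≠ c) (f : ℕ → ZMod 2) :
    ∑ r ∈ (n * p * c).primeFactors, f r = (∑ q : PF n, f q) + f p + f c := by
  rw [Nat.primeFactors_mul (mul_ne_zero hn hp.ne_zero) hc.ne_zero, Nat.primeFactors_mul hn hp.ne_zero,
    hp.primeFactors, hc.primeFactors, sum_union, sum_union, sum_singleton, sum_singleton,
    ← sum_coe_sort n.primeFactors]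
  · rw [disjoint_singleton_right]
    exact fun h => hpn (Nat.dvd_of_mem_primeFactors h)
  · rw [disjoint_singleton_right, mem_union, mem_singleton, not_or]
    exact ⟨fun h => hcn (Nat.dvd_of_mem_primeFactors h), fun h => hpc h.symm⟩

/-- local conditions at the primes of `d` from a primitive solution -/
theorem form_local {d b : ℕ} (hd : Squarefree d) (hb : Squarefree b) {X Y Z : ℤ}
    (heq : X ^ 2 + d * Y ^ 2 = b * Z ^ 2)
    (hprim : ∀ p : ℕ, p.Prime → ¬ ((p : ℤ) ∣ X ∧ (p : ℤ) ∣ Y ∧ (p : ℤ) ∣ Z))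
    {q δ : ℕ} (hq : q.Prime) (hδ : d = q * δ) :
    (¬ q ∣ b → IsSquare ((b : ℕ) : ZMod q)) ∧
    (∀ β : ℕ, b = q * β → IsSquare ((β * δ : ℕ) : ZMod q)) := by
  have := Fact.mk hq
  have hp' : Prime (q : ℤ) := Nat.prime_iff_prime_int.mp hq
  have hqδ : ¬ q ∣ δ := by
    intro h
    have : q * q ∣ d := by rw [hδ]; exact Nat.mul_dvd_mul_left q h
    exact hq.one_lt.ne' (Nat.isUnit_iff.mp (hd q this))
  constructor
  · intro hqb
    have hZp : ¬ (q : ℤ) ∣ Z := by
      intro hZp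
      have h1 : (q : ℤ) ∣ X ^ 2 := by
        have : X ^ 2 = b * Z ^ 2 - q * (δ * Y ^ 2) := by rw [hδ] at heq; push_cast at heq; linarith
        rw [this]
        exact dvd_sub (Dvd.dvd.mul_left (Dvd.dvd.pow hZp two_ne_zero) _) (dvd_mul_right _ _)
      have h2 := hp'.dvd_of_dvd_pow h1
      obtain ⟨x, hx⟩ := h2
      obtain ⟨z, hz⟩ := hZp
      have h3 : (q : ℤ) ∣ δ * Y ^ 2 := by
        refine ⟨b * z ^ 2 - x ^ 2, ?_⟩
        apply mul_left_cancel₀ hp'.ne_zero
        rw [hδ, hx, hz] at heq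
        push_cast at heq
        linear_combination heq
      rcases hp'.dvd_or_dvd h3 with h4 | h4
      · exact hqδ (by exact_mod_cast h4)
      · exact hprim q hq ⟨⟨x, hx⟩, hp'.dvd_of_dvd_pow h4, ⟨z, hz⟩⟩
    have hZ0 : ((Z : ℤ) : ZMod q) ≠ 0 := by
      rwa [Ne, ZMod.intCast_zmod_eq_zero_iff_dvd]
    refine ⟨(X : ZMod q) / Z, ?_⟩
    have h1 : ((X ^ 2 + d * Y ^ 2 : ℤ) : ZMod q) = ((b * Z ^ 2 : ℤ) : ZMod q) := by rw [heq]
    push_cast at h1
    have h2 : (d : ZMod q) = 0 := by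
      rw [hδ]; simp
    rw [h2] at h1
    field_simp
    linear_combination -h1
  · intro β hβ
    have hqβ : ¬ q ∣ β := by
      intro h
      have : q * q ∣ b := by rw [hβ]; exact Nat.mul_dvd_mul_left q h
      exact hq.one_lt.ne' (Nat.isUnit_iff.mp (hb q this))
    have h1 : (q : ℤ) ∣ X ^ 2 := by
      refine ⟨β * Z ^ 2 - δ * Y ^ 2, ?_⟩
      rw [hδ, hβ] at heq
      push_cast at heq
      linear_combination heq
    obtain ⟨x, hx⟩ := hp'.dvd_of_dvd_pow h1
    have heq3 : q * x ^ 2 + δ * Y ^ 2 = β * Z ^ 2 := by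
      apply mul_left_cancel₀ hp'.ne_zero
      rw [hx, hδ, hβ] at heq
      push_cast at heq
      linear_combination heq
    have hβ0 : ((β : ℕ) : ZMod q) ≠ 0 := by
      rwa [Ne, ZMod.natCast_eq_zero_iff]
    have h2 : (δ : ZMod q) * (Y : ZMod q) ^ 2 = β * (Z : ZMod q) ^ 2 := by
      have h1 : ((q * x ^ 2 + δ * Y ^ 2 : ℤ) : ZMod q) = ((β * Z ^ 2 : ℤ) : ZMod q) := by
        rw [heq3]
      push_cast at h1
      rw [ZMod.natCast_self, zero_mul, zero_add] at h1
      exact h1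
    by_cases hY0 : ((Y : ℤ) : ZMod q) = 0
    · exfalso
      rw [hY0] at h2
      have hZ0 : ((Z : ℤ) : ZMod q) = 0 := by
        have h3 : (β : ZMod q) * ((Z : ℤ) : ZMod q) ^ 2 = 0 := by rw [← h2]; ring
        rcases mul_eq_zero.mp h3 with h4 | h4
        · exact absurd h4 hβ0
        · exact pow_eq_zero_iff two_ne_zero |>.mp h4
      rw [ZMod.intCast_zmod_eq_zero_iff_dvd] at hY0 hZ0
      exact hprim q hq ⟨⟨x, hx⟩, hY0, hZ0⟩
    · refine ⟨β * (Z : ZMod q) / Y, ?_⟩
      push_cast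
      field_simp
      linear_combination h2

theorem bit5 {q : ℕ} (hq : q.Prime) (h2 : q ≠ 2) : bit (5 : ℤ) q = bit (q : ℤ) 5 := by
  unfold bit
  have h := jacobiSym.quadratic_reciprocity_one_mod_four' (a := q) (b := 5) (hq.odd_of_ne_two h2)
    (by norm_num)
  have h5 : jacobiSym ((5 : ℕ) : ℤ) q = jacobiSym (q : ℤ) 5 := h.symm
  rw [show (5 : ℤ) = ((5 : ℕ) : ℤ) by norm_num, h5]

theorem bit_mod3 {a : ℕ} (h : a % 3 = 1) : bit (a : ℤ) 3 = 0 := by
  apply bit_of_isSquare
  refine ⟨1, ?_⟩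
  have : ((a : ℤ) : ZMod 3) = ((a % 3 : ℕ) : ZMod 3) := by
    push_cast
    simp
  rw [this, h]
  norm_num

theorem bit53 : bit (5 : ℤ) 3 = 1 := by
  unfold bit
  rw [if_pos (by norm_num)]

/-- from the local conditions to the kernel of the matrix -/
theorem lin1 {n p b : ℕ} (hn : Squarefree n) (ho : Odd n) (h5 : ¬ 5 ∣ n)
    (hp : p.Prime) (p5 : 5 < p) (hpn : ¬ p ∣ n) (hd3 : (n * p) % 3 = 1)
    (hc : ck (ext (Mat n (sym n p)) (fun q => bit ((q : ℕ) : ℤ) 5)
      (fun q => bit ((q : ℕ) : ℤ) 3) 1) = 0)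
    (hb : b ∣ n * p * 5) (hb3 : b % 3 = 1)
    (hloc : ∀ q δ : ℕ, q.Prime → q ∣ n → n * p = q * δ → (¬ q ∣ b → IsSquare ((b : ℕ) : ZMod q)) ∧
      (∀ β : ℕ, b = q * β → IsSquare ((β * δ : ℕ) : ZMod q))) :
    b = 1 ∨ b = n * p := by
  classical
  have hn0 := hn.ne_zero
  have hp5 : p ≠ 5 := by omega
  have h5p : Nat.Prime 5 := Nat.prime_five
  have h3p : Nat.Prime 3 := Nat.prime_three
  have hcop : Nat.Coprime n p := ((Nat.Prime.coprime_iff_not_dvd hp).mpr hpn).symm
  have hd : Squarefree (n * p) := (Nat.squarefree_mul hcop).mpr ⟨hn, hp.squarefree⟩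
  have h5d : ¬ 5 ∣ n * p := by
    intro h
    rcases (Nat.Prime.dvd_mul h5p).mp h with h | h
    · exact h5 h
    · exact hp5 ((Nat.prime_dvd_prime_iff_eq h5p hp).mp h).symm
  have hD : Squarefree (n * p * 5) :=
    (Nat.squarefree_mul ((Nat.Prime.coprime_iff_not_dvd h5p).mpr h5d).symm).mpr
      ⟨hd, h5p.squarefree⟩
  have hqp : ∀ q : PF n, (q : ℕ).Prime := fun q => Nat.prime_of_mem_primeFactors q.2
  have hqn : ∀ q : PF n, (q : ℕ) ∣ n := fun q => Nat.dvd_of_mem_primeFactors q.2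
  have hq2 : ∀ q : PF n, (q : ℕ) ≠ 2 := by
    intro q hq
    have h2 : 2 ∣ n := hq ▸ hqn q
    rcases ho with ⟨k, hk⟩
    omega
  have hsum : ∀ f : ℕ → ZMod 2, ∑ r ∈ (n * p * 5).primeFactors, f r =
      (∑ q : PF n, f q) + f p + f 5 := fun f => sum_pf hn0 hp h5p hpn h5 hp5 f
  -- the vector
  let x : ℕ → ZMod 2 := fun r => if r ∣ b then 1 else 0
  let v : Option (PF n) → ZMod 2 := fun a => match a with
    | some q => x q + x p
    | none => x 5
  have hbx : ∀ q : ℕ, (∑ r ∈ (n * p * 5).primeFactors, if r ∣ b then bit (r : ℤ) q else 0) =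
      (∑ r : PF n, x r * bit ((r : ℕ) : ℤ) q) + x p * bit (p : ℤ) q + x 5 * bit (5 : ℤ) q := by
    intro q
    rw [hsum]
    have : ∀ r : ℕ, (if r ∣ b then bit (r : ℤ) q else 0) = x r * bit (r : ℤ) q := by
      intro r
      simp only [x]
      split_ifs <;> simp
    rw [this p, this 5, sum_congr rfl fun (r : PF n) _ => this r]
    rfl
  have hdx : ∀ q : ℕ, (∑ r ∈ (n * p * 5).primeFactors, if r ∣ n * p then bit (r : ℤ) q else 0) =
      (∑ r : PF n, bit ((r : ℕ) : ℤ) q) + bit (p : ℤ) q := by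
    intro q
    rw [hsum, if_pos (dvd_mul_left p n), if_neg h5d, add_zero]
    congr 1
    apply sum_congr rfl
    intro r _
    rw [if_pos ((hqn r).mul_right p)]
  have hv : v = 0 := by
    apply ker_zero _ hc
    have hext := ext_mulVec (Mat n (sym n p)) (fun q => bit ((q : ℕ) : ℤ) 5)
      (fun q => bit ((q : ℕ) : ℤ) 3) 1 v
    funext a
    rw [Pi.zero_apply]
    cases a with
    | some q =>
      rw [hext.1 q, mulVec_Mat]
      obtain ⟨δ, hδ⟩ : (q : ℕ) ∣ n * p := (hqn q).mul_right p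
      have hl := hloc q δ (hqp q) (hqn q) hδ
      have e0 : (∑ r : PF n, (x r + x p) * bit ((r : ℕ) : ℤ) q) =
          (∑ r : PF n, x r * bit ((r : ℕ) : ℤ) q) + x p * ∑ r : PF n, bit ((r : ℕ) : ℤ) q := by
        rw [mul_sum, ← sum_add_distrib]
        apply sum_congr rfl
        intro r _
        ring
      have hsymp : sym n p q = bit (p : ℤ) q := rfl
      have hgoal : (∑ r : PF n, x r * bit ((r : ℕ) : ℤ) q) + x p * bit (p : ℤ) q +
          x 5 * bit (5 : ℤ) q + x q * ((∑ r : PF n, bit ((r : ℕ) : ℤ) q) + bit (p : ℤ) q) = 0 := by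
        rw [← hbx]
        by_cases hqb : (q : ℕ) ∣ b
        · obtain ⟨β, hβ⟩ := hqb
          have g1 := (bit_dvd hD hb (hqp q)).2 β hβ
          have g2 := (bit_dvd hD (dvd_mul_right (n * p) 5) (hqp q)).2 δ hδ
          rw [hdx] at g2
          have g3 := bit_of_isSquare (a := ((β * δ : ℕ) : ℤ)) (q := q)
            (by exact_mod_cast hl.2 β hβ)
          have hx1 : x q = 1 := if_pos ⟨β, hβ⟩
          have hj : ∀ c : ℕ, ¬ (q : ℕ) ∣ c → jacobiSym (c : ℤ) q ≠ 0 := by
            intro c hc'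
            have _ := NeZero.mk (hqp q).ne_zero
            apply jacobiSym.ne_zero
            rw [Int.gcd_natCast_natCast]
            exact ((Nat.Prime.coprime_iff_not_dvd (hqp q)).mpr hc').symm
          have hqβ : ¬ (q : ℕ) ∣ β := by
            intro h
            have : (q : ℕ) * q ∣ n * p * 5 := (Nat.mul_dvd_mul_left q h).trans (hβ ▸ hb)
            exact (hqp q).one_lt.ne' (Nat.isUnit_iff.mp (hD q this))
          have hqδ : ¬ (q : ℕ) ∣ δ := by
            intro h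
            have : (q : ℕ) * q ∣ n * p := by rw [hδ]; exact Nat.mul_dvd_mul_left q h
            exact (hqp q).one_lt.ne' (Nat.isUnit_iff.mp (hd q this))
          push_cast at g3
          rw [bit_mul (hj β hqβ) (hj δ hqδ), g1, g2] at g3
          rw [hx1, one_mul]
          exact g3
        · have g1 := (bit_dvd hD hb (hqp q)).1 hqb
          have g3 := bit_of_isSquare (a := (b : ℤ)) (q := q) (by exact_mod_cast hl.1 hqb)
          have hx1 : x q = 0 := if_neg hqb
          rw [hx1, zero_mul, add_zero, ← g1, g3]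
      rw [bit5 (hqp q) (hq2 q)] at hgoal
      have h2 : ∀ t : ZMod 2, t + t = 0 := CharTwo.add_self_eq_zero
      show (∑ r : PF n, (x r + x p) * bit ((r : ℕ) : ℤ) q) +
        (x q + x p) * (sym n p q + ∑ r : PF n, bit ((r : ℕ) : ℤ) q) + bit ((q : ℕ) : ℤ) 5 * x 5 = 0
      rw [e0, hsymp]
      have h4 := h2 (x p * ∑ r : PF n, bit ((r : ℕ) : ℤ) q)
      linear_combination hgoal + h4
    | none =>
      rw [hext.2]
      show (∑ q : PF n, bit ((q : ℕ) : ℤ) 3 * (x q + x p)) + 1 * x 5 = 0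
      have h3b : ¬ 3 ∣ b := by omega
      have g1 := (bit_dvd hD hb h3p).1 h3b
      rw [bit_mod3 hb3, hbx, bit53] at g1
      have h3d : ¬ 3 ∣ n * p := by omega
      have g2 := (bit_dvd hD (dvd_mul_right (n * p) 5) h3p).1 h3d
      rw [bit_mod3 hd3, hdx] at g2
      have e0 : (∑ q : PF n, bit ((q : ℕ) : ℤ) 3 * (x q + x p)) =
          (∑ r : PF n, x r * bit ((r : ℕ) : ℤ) 3) + x p * ∑ r : PF n, bit ((r : ℕ) : ℤ) 3 := by
        rw [mul_sum, ← sum_add_distrib]
        apply sum_congr rfl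
        intro r _
        ring
      rw [e0]
      have h2 : ∀ t : ZMod 2, t + t = 0 := CharTwo.add_self_eq_zero
      have h4 := h2 (x p * bit (p : ℤ) 3)
      linear_combination -g1 - x p * g2 - h4
  have hx5 : x 5 = 0 := congrFun hv none
  have hxq : ∀ q : PF n, x q + x p = 0 := fun q => congrFun hv (some q)
  have h5b : ¬ 5 ∣ b := by
    intro h
    have : x 5 = 1 := if_pos h
    rw [hx5] at this
    exact zero_ne_one this
  have hbd : b ∣ n * p := by
    apply Nat.Coprime.dvd_of_dvd_mul_right _ hb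
    exact ((Nat.Prime.coprime_iff_not_dvd h5p).mpr h5b).symm
  have hbpf : b = ∏ r ∈ (n * p).primeFactors, if r ∣ b then r else 1 := (prod_if_dvd hd hbd).symm
  by_cases hpb : p ∣ b
  · right
    have hxp : x p = 1 := if_pos hpb
    rw [hbpf]
    conv_rhs => rw [← Nat.prod_primeFactors_of_squarefree hd]
    apply prod_congr rfl
    intro r hr
    rw [if_pos]
    have hr1 := Nat.prime_of_mem_primeFactors hr
    rcases (Nat.Prime.dvd_mul hr1).mp (Nat.dvd_of_mem_primeFactors hr) with h | h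
    · have h1 := hxq ⟨r, Nat.mem_primeFactors.mpr ⟨hr1, h, hn0⟩⟩
      rw [hxp] at h1
      by_contra hcon
      have h2 : x r = 0 := if_neg hcon
      rw [h2, zero_add] at h1
      exact one_ne_zero h1
    · rw [(Nat.prime_dvd_prime_iff_eq hr1 hp).mp h]; exact hpb
  · left
    have hxp : x p = 0 := if_neg hpb
    rw [hbpf]
    apply prod_eq_one
    intro r hr
    rw [if_neg]
    have hr1 := Nat.prime_of_mem_primeFactors hr
    rcases (Nat.Prime.dvd_mul hr1).mp (Nat.dvd_of_mem_primeFactors hr) with h | h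
    · have h1 := hxq ⟨r, Nat.mem_primeFactors.mpr ⟨hr1, h, hn0⟩⟩
      rw [hxp, add_zero] at h1
      intro hcon
      have h2 : x r = 1 := if_pos hcon
      rw [show x ((⟨r, Nat.mem_primeFactors.mpr ⟨hr1, h, hn0⟩⟩ : PF n) : ℕ) = x r from rfl,
        h2] at h1
      exact one_ne_zero h1
    · rw [(Nat.prime_dvd_prime_iff_eq hr1 hp).mp h]; exact hpb

theorem stmtD1a : StmtD1a := by
  intro n hn ho h3 h5 p hp p5 hpn hok h4 hc
  obtain ⟨d, hdd⟩ : ∃ d, d = n * p := ⟨_, rfl⟩
  have hcop : Nat.Coprime n p := ((Nat.Prime.coprime_iff_not_dvd hp).mpr hpn).symm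
  have hd : Squarefree d := by rw [hdd]; exact (Nat.squarefree_mul hcop).mpr ⟨hn, hp.squarefree⟩
  rw [← hdd] at hok h4 ⊢
  have hdpos : 0 < d := Nat.pos_of_ne_zero hd.ne_zero
  have hdQ : (0 : ℚ) < d := by exact_mod_cast hdpos
  have h3d : ¬ 3 ∣ d := by have := hok.1; omega
  have h5d : ¬ 5 ∣ d := by have := hok.2; omega
  intro x y h hx
  have hx20 : x - 20 * d ≠ 0 := by
    intro h0
    have hx' : x = 20 * d := by linarith
    rw [hx'] at h
    have : y ^ 2 = -(400 * (d : ℚ) ^ 3) := by rw [h]; ring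
    have h3 : 0 < (d : ℚ) ^ 3 := by positivity
    nlinarith [sq_nonneg y]
  have hxpos : 0 < x := by
    rcases lt_or_gt_of_ne hx with hneg | hpos
    · exfalso
      have h3 : 0 < (x - 16 * d) * (x - 25 * d) := by nlinarith
      have h4 : y ^ 2 = x * ((x - 16 * d) * (x - 25 * d)) := by rw [h]; ring
      nlinarith [sq_nonneg y]
    · exact hpos
  obtain ⟨b, M, e, hb, hMe, hM, he, hXb⟩ := exists_sqf hx
  obtain ⟨N, hN⟩ := exists_int_eq (Y := y) (α := -16 * (d : ℤ)) (β := -25 * (d : ℤ)) hb hM he hXb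
    (by push_cast; rw [h]; ring)
  have hr0 : (M / e : ℚ) ≠ 0 := div_ne_zero (by exact_mod_cast hM) (by exact_mod_cast he)
  have hbpos : 0 < b := by
    have h3 : (0 : ℚ) < (M / e : ℚ) ^ 2 := by positivity
    have h4 : (0 : ℚ) < b := by
      rw [hXb] at hxpos
      exact pos_of_mul_pos_left hxpos h3.le
    exact_mod_cast h4
  lift b to ℕ using hbpos.le
  have hbsq : Squarefree b := Int.squarefree_natCast.mp hb
  have hram : ∀ p : ℕ, p.Prime → p ∣ b → p ∣ d ∨ p = 5 := by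
    intro p hp hpb
    have hpbZ : (p : ℤ) ∣ (b : ℤ) := Int.natCast_dvd_natCast.mpr hpb
    by_cases hpd : p ∣ d
    · exact Or.inl hpd
    by_cases hp2 : p = 2
    · exfalso
      subst hp2
      exact two_adic_first hb hMe (by omega) hN (by exact_mod_cast hpbZ)
    by_cases hp5 : p = 5
    · exact Or.inr hp5
    exfalso
    apply prime_dvd_gen hp hb hMe hN hpbZ
    · intro h1
      rcases (Nat.prime_iff_prime_int.mp hp).dvd_or_dvd h1 with h1 | h1
      · rw [Int.dvd_neg] at h1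
        have h3 : p ∣ 2 ^ 4 := by exact_mod_cast h1
        exact hp2 ((Nat.prime_dvd_prime_iff_eq hp Nat.prime_two).mp (hp.dvd_of_dvd_pow h3))
      · exact hpd (by exact_mod_cast h1)
    · intro h1
      rcases (Nat.prime_iff_prime_int.mp hp).dvd_or_dvd h1 with h1 | h1
      · rw [Int.dvd_neg] at h1
        have h3 : p ∣ 5 ^ 2 := by exact_mod_cast h1
        exact hp5 ((Nat.prime_dvd_prime_iff_eq hp Nat.prime_five).mp (hp.dvd_of_dvd_pow h3))
      · exact hpd (by exact_mod_cast h1)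
  have hbD : b ∣ d * 5 := by
    rw [← Nat.prod_primeFactors_of_squarefree hbsq]
    refine Finset.prod_primes_dvd _ (fun p hp => (Nat.prime_of_mem_primeFactors hp).prime)
      (fun p hp => ?_)
    rcases hram p (Nat.prime_of_mem_primeFactors hp) (Nat.dvd_of_mem_primeFactors hp) with h | h
    · exact h.mul_right 5
    · rw [h]; exact dvd_mul_left 5 d
  -- modulo 3
  have hb3 : b % 3 = 1 := by
    have h3b : ¬ 3 ∣ b := by
      intro h
      rcases hram 3 Nat.prime_three h with h | h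
      · exact h3d h
      · omega
    by_contra hcon
    have hb2 : b % 3 = 2 := by omega
    have hbz : ((b : ℤ) : ZMod 3) = 2 := by
      have : ((b : ℤ) : ZMod 3) = ((b % 3 : ℕ) : ZMod 3) := by push_cast; simp
      rw [this, hb2]; rfl
    have hdz : ((d : ℤ) : ZMod 3) = 1 := by
      have : ((d : ℤ) : ZMod 3) = ((d % 3 : ℕ) : ZMod 3) := by push_cast; simp
      rw [this, hok.1]; simp
    have key : ∀ M e N : ZMod 3, (2 * M ^ 2 + (-16 * 1) * e ^ 2) * (2 * M ^ 2 + (-25 * 1) * e ^ 2) =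
        2 * N ^ 2 → M = 0 ∧ e = 0 := by decide
    have h1 := congrArg (Int.cast : ℤ → ZMod 3) hN
    push_cast at h1
    have hbz' : (b : ZMod 3) = 2 := by exact_mod_cast hbz
    have hdz' : (d : ZMod 3) = 1 := by exact_mod_cast hdz
    rw [hbz', hdz'] at h1
    obtain ⟨h2, h5⟩ := key _ _ _ h1
    rw [ZMod.intCast_zmod_eq_zero_iff_dvd] at h2 h5
    exact cop_ndvd Nat.prime_three hMe h5 h2
  -- the norm equation
  have hnorm : (y / (M / e) / (x - 20 * d)) ^ 2 + d * (b * (M / e) / (x - 20 * d)) ^ 2 =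
      (b : ℚ) := by
    obtain ⟨r, hr⟩ : ∃ r : ℚ, r = M / e := ⟨_, rfl⟩
    rw [← hr] at hXb hr0 ⊢
    push_cast at hXb
    obtain ⟨z, hz⟩ : ∃ z, z = x - 20 * d := ⟨_, rfl⟩
    rw [← hz] at hx20 ⊢
    have hy2 : y ^ 2 = b * r ^ 2 * (z ^ 2 - d * (b * r ^ 2)) := by
      rw [h, hz, hXb]; ring
    field_simp
    rw [hy2]
    ring
  obtain ⟨X, Y, Z, hZ, hX, hY, hprim⟩ := exists_prim (y / (M / e) / (x - 20 * d))
    (b * (M / e) / (x - 20 * d))
  have heq : X ^ 2 + d * Y ^ 2 = b * Z ^ 2 := by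
    have : (X : ℚ) ^ 2 + d * Y ^ 2 = b * Z ^ 2 := by
      rw [← hX, ← hY]
      linear_combination (Z : ℚ) ^ 2 * hnorm
    exact_mod_cast this
  have hfin : b = 1 ∨ b = d := by
    rw [hdd]
    refine lin1 hn ho h5 hp p5 hpn (by rw [← hdd]; exact hok.1) hc (by rw [← hdd]; exact hbD)
      hb3 ?_
    intro q δ hq hqn hδ
    exact form_local hd hbsq heq hprim hq (hdd.trans hδ)
  rcases hfin with h1 | h1
  · refine ⟨M / e, Or.inl ?_⟩
    rw [hXb, h1]; push_cast; ring
  · refine ⟨M / e, Or.inr ?_⟩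
    rw [hXb, h1]; push_cast; ring

end Vale.Agent.P017.R3.H985
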