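import Vale.Agent.P017.R2.H985.First
import Vale.Agent.P017.R3.Defs
import Vale.Agent.P017.R2.H160.M3
import Vale.Agent.P017.R2.H918.BL
import Vale.Agent.P017.R2.H285.Per

open Finset Filter Topology

namespace Vale.Agent.P017.R3.H985

open Vale.Agent.P017.R2.H985

theorem rankin2 {Y : ℕ} (hY : 2 ≤ Y) {σ : ℝ} (hσ : σ = 1 + 1 / (1 + Real.log Y)) :
    ∑ m ∈ (Icc 1 Y).filter (fun m => Squarefree m ∧ Odd m),
    (∑ b ∈ m.divisors, ∑ c ∈ (m / b).divisors, (jacobiSym b c : ℝ)) /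
      (2 ^ m.primeFactors.card * m) ≤ Real.exp 1 * (D σ * Z σ) := by
  have hlogY : 0 < Real.log Y := Real.log_pos (by exact_mod_cast hY)
  have hσ1 : 1 < σ := by
    rw [hσ]
    have : (0:ℝ) < 1 / (1 + Real.log Y) := by positivity
    linarith
  set t : ℕ × ℕ → ℝ := fun x => lam σ x.1 * lam σ x.2 * ∑ c ∈ x.2.divisors, J x.1 c with ht
  have ht0 : ∀ x, 0 ≤ t x := fun x =>
    mul_nonneg (mul_nonneg (lam_nonneg σ _) (lam_nonneg σ _)) (G_nonneg _ _)
  have h1 : ∀ m ∈ (Icc 1 Y).filter (fun m => Squarefree m ∧ Odd m),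
      (∑ b ∈ m.divisors, ∑ c ∈ (m / b).divisors, (jacobiSym b c : ℝ)) /
      (2 ^ m.primeFactors.card * m) ≤ Real.exp 1 * ∑ x ∈ m.divisorsAntidiagonal, t x := by
    intro m hm
    rw [mem_filter, mem_Icc] at hm
    obtain ⟨⟨hm1, hmY⟩, hsq, hodd⟩ := hm
    have h2 : ∑ x ∈ m.divisorsAntidiagonal, t x =
        lam σ m * ∑ b ∈ m.divisors, ∑ c ∈ (m / b).divisors, (jacobiSym b c : ℝ) := by
      rw [mul_sum, ← Nat.sum_divisorsAntidiagonal
        (fun b n => lam σ m * ∑ c ∈ n.divisors, (jacobiSym b c : ℝ))]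
      apply sum_congr rfl
      rintro ⟨b, n⟩ hx
      rw [Nat.mem_divisorsAntidiagonal] at hx
      simp only [ht]
      rw [← hx.1, lam_mul]
      rfl
    have hG : 0 ≤ ∑ b ∈ m.divisors, ∑ c ∈ (m / b).divisors, (jacobiSym b c : ℝ) :=
      sum_nonneg fun b _ => G_nonneg b _
    rw [h2]
    have hm0 : (0:ℝ) < m := by exact_mod_cast hm1
    have h3 : 1 / (2 ^ m.primeFactors.card * (m:ℝ)) ≤ Real.exp 1 * lam σ m := by
      unfold lam
      rw [if_pos hodd]
      have h4 : ArithmeticFunction.cardFactors m = m.primeFactors.card := by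
        rw [← ArithmeticFunction.cardDistinctFactors_eq_cardFactors_iff_squarefree hsq.ne_zero |>.mpr hsq]
        rfl
      rw [h4]
      have h5 : (1:ℝ) / m ≤ Real.exp 1 * (m:ℝ) ^ (-σ) := by
        have h6 : (m:ℝ) ^ (-σ) = (1 / m) * Real.exp (-(Real.log m * (1 / (1 + Real.log Y)))) := by
          have h9 : (m:ℝ) ^ (-(1 / (1 + Real.log Y))) =
              Real.exp (-(Real.log m * (1 / (1 + Real.log Y)))) := by
            rw [Real.rpow_def_of_pos hm0]; congr 1; ring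
          rw [hσ, neg_add, Real.rpow_add hm0, Real.rpow_neg_one, h9, one_div (m:ℝ)]
        rw [h6, mul_comm (Real.exp 1), mul_assoc, ← Real.exp_add]
        apply le_mul_of_one_le_right (by positivity)
        apply Real.one_le_exp
        have h7 : Real.log m ≤ Real.log Y := Real.log_le_log hm0 (by exact_mod_cast hmY)
        have h8 : Real.log m * (1 / (1 + Real.log Y)) ≤ 1 := by
          rw [mul_one_div, div_le_one (by positivity)]
          linarith
        linarith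
      calc 1 / (2 ^ m.primeFactors.card * (m:ℝ)) = (1/2) ^ m.primeFactors.card * (1 / m) := by
            rw [one_div_pow]; field_simp
        _ ≤ (1/2) ^ m.primeFactors.card * (Real.exp 1 * (m:ℝ) ^ (-σ)) := by gcongr
        _ = _ := by ring
    calc _ = (1 / (2 ^ m.primeFactors.card * (m:ℝ))) *
          ∑ b ∈ m.divisors, ∑ c ∈ (m / b).divisors, (jacobiSym b c : ℝ) := by ring
      _ ≤ (Real.exp 1 * lam σ m) * ∑ b ∈ m.divisors, ∑ c ∈ (m / b).divisors, (jacobiSym b c : ℝ) := by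
          gcongr
      _ = _ := by ring
  refine (sum_le_sum h1).trans ?_
  rw [← mul_sum]
  apply mul_le_mul_of_nonneg_left _ (Real.exp_pos 1).le
  rw [← sum_biUnion]
  · exact sum_le_hasSum _ (fun x _ => ht0 x) (hasSum_pairs hσ1)
  · intro m _ n _ hmn
    rw [Function.onFun, disjoint_left]
    intro x hx hx'
    rw [Nat.mem_divisorsAntidiagonal] at hx hx'
    exact hmn (hx.1.symm.trans hx'.1)


theorem stmtFirst2_of (hEP : StmtEP) (hLB : StmtLB) (hPS1 : StmtPS1) (hPS2 : StmtPS2) (hBL : StmtBL) :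
    Vale.Agent.P017.R3.StmtFirst2 := by
  obtain ⟨C, hC, hBL⟩ := hBL
  refine ⟨Real.exp 1 * ((400000 * C + 700000) * 2 * 3), by positivity, fun Y hY => ?_⟩
  have hlogY : Real.log 2 ≤ Real.log Y := Real.log_le_log (by norm_num) (by exact_mod_cast hY)
  have hlog2 := Real.log_two_gt_d9
  set L : ℝ := 1 + Real.log Y with hLdef
  have hL : 1 ≤ L := by linarith
  have hL0 : 0 < L := by linarith
  set σ : ℝ := 1 + 1 / L with hσ
  have hσ1 : 1 < σ := by
    have : 0 < 1 / L := by positivity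
    linarith
  refine (rankin2 hY rfl).trans ?_
  have hZ : Z σ ≤ Real.sqrt (1 + L) := by
    have := Z_le hEP hσ1
    have e : 1 + 1 / (σ - 1) = 1 + L := by
      rw [hσ]; field_simp; ring
    rwa [e] at this
  have hsq : Real.sqrt (1 + L) ≤ 2 * Real.sqrt L := by
    rw [show (2:ℝ) * Real.sqrt L = Real.sqrt (4 * L) by
      rw [Real.sqrt_mul (by norm_num), show (4:ℝ) = 2 ^ 2 by norm_num, Real.sqrt_sq (by norm_num)]]
    exact Real.sqrt_le_sqrt (by linarith)
  have hsL1 : 1 ≤ Real.sqrt L := by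
    rw [show (1:ℝ) = Real.sqrt 1 by simp]
    exact Real.sqrt_le_sqrt hL
  -- choice of `i0`
  set i0 : ℕ := ⌈30 * Real.logb 2 L⌉₊ with hi0
  have hlb : 0 ≤ Real.logb 2 L := Real.logb_nonneg (by norm_num) hL
  have h1 : hh i0 * L ^ 5 ≤ 1 := by
    unfold hh
    have h2 : L ^ 5 ≤ (2:ℝ) ^ ((i0:ℝ) / 6) := by
      calc L ^ 5 = ((2:ℝ) ^ (Real.logb 2 L)) ^ 5 := by
            rw [Real.rpow_logb (by norm_num) (by norm_num) hL0]
        _ = (2:ℝ) ^ (5 * Real.logb 2 L) := by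
            rw [← Real.rpow_natCast, ← Real.rpow_mul (by norm_num)]
            congr 1; push_cast; ring
        _ ≤ (2:ℝ) ^ ((i0:ℝ) / 6) := by
            apply Real.rpow_le_rpow_of_exponent_le (by norm_num)
            have := Nat.le_ceil (30 * Real.logb 2 L)
            rw [← hi0] at this
            linarith
    rw [Real.rpow_neg (by norm_num)]
    rw [inv_mul_le_iff₀ (by positivity)]
    linarith
  have h2 : Real.log ((2 ^ i0 : ℕ) : ℝ) ≤ 30 * Real.log L + 1 := by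
    push_cast
    rw [Real.log_pow]
    have h3 : (i0 : ℝ) ≤ 30 * Real.logb 2 L + 1 := (Nat.ceil_lt_add_one (by positivity)).le
    have h4 : Real.logb 2 L * Real.log 2 = Real.log L := by
      unfold Real.logb; field_simp
    have h5 : Real.log 2 ≤ 1 := by have := Real.log_two_lt_d9; linarith
    have h6 : (0:ℝ) < Real.log 2 := by linarith
    calc (i0:ℝ) * Real.log 2 ≤ (30 * Real.logb 2 L + 1) * Real.log 2 := by gcongr
      _ = 30 * (Real.logb 2 L * Real.log 2) + Real.log 2 := by ring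
      _ ≤ _ := by rw [h4]; linarith
  have hlogL : Real.log L ≤ 4 * L ^ ((1:ℝ)/4) := by
    have := Real.log_le_rpow_div hL0.le (by norm_num : (0:ℝ) < 1/4)
    linarith
  have hq1 : 1 ≤ L ^ ((1:ℝ)/4) := Real.one_le_rpow hL (by norm_num)
  have hq2 : (L ^ ((1:ℝ)/4)) ^ 2 = Real.sqrt L := by
    rw [← Real.rpow_natCast, ← Real.rpow_mul hL0.le, Real.sqrt_eq_rpow]
    norm_num
  have hQ0 : 0 ≤ Real.log ((2 ^ i0 : ℕ) : ℝ) := Real.log_natCast_nonneg _
  have h3 : (1 + Real.log ((2 ^ i0 : ℕ) : ℝ)) ^ 2 ≤ 15000 * Real.sqrt L := by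
    have h4 : 1 + Real.log ((2 ^ i0 : ℕ) : ℝ) ≤ 122 * L ^ ((1:ℝ)/4) := by linarith
    calc (1 + Real.log ((2 ^ i0 : ℕ) : ℝ)) ^ 2 ≤ (122 * L ^ ((1:ℝ)/4)) ^ 2 := by gcongr
      _ = 14884 * (L ^ ((1:ℝ)/4)) ^ 2 := by ring
      _ ≤ _ := by rw [hq2]; linarith [Real.sqrt_nonneg L]
  have h5 : Real.sqrt (Real.log (4 * ((2 ^ i0 : ℕ) : ℝ)) + 4) ≤ 6 * (1 + Real.log ((2 ^ i0 : ℕ) : ℝ)) := by
    have h6 : Real.log (4 * ((2 ^ i0 : ℕ) : ℝ)) ≤ 2 + Real.log ((2 ^ i0 : ℕ) : ℝ) := by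
      rw [Real.log_mul (by norm_num) (by positivity)]
      have : Real.log 4 = 2 * Real.log 2 := by
        rw [show (4:ℝ) = 2 ^ 2 by norm_num, Real.log_pow]; push_cast; ring
      rw [this]
      have := Real.log_two_lt_d9
      linarith
    rw [Real.sqrt_le_left (by positivity)]
    nlinarith
  have h7 : (1 + Real.log ((2 ^ i0 : ℕ) : ℝ)) * Real.sqrt (Real.log (4 * ((2 ^ i0 : ℕ) : ℝ)) + 4) ≤
      90000 * Real.sqrt L := by
    calc _ ≤ (1 + Real.log ((2 ^ i0 : ℕ) : ℝ)) * (6 * (1 + Real.log ((2 ^ i0 : ℕ) : ℝ))) := by gcongr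
      _ = 6 * (1 + Real.log ((2 ^ i0 : ℕ) : ℝ)) ^ 2 := by ring
      _ ≤ _ := by linarith
  have hD := D_le hEP hLB hPS1 hPS2 hC hBL hL hσ i0
  have h8 : 2 * C * ((20000 * L ^ 5) * (10 * hh i0)) ≤ 400000 * C := by
    calc _ = 400000 * C * (hh i0 * L ^ 5) := by ring
      _ ≤ 400000 * C * 1 := by gcongr
      _ = _ := by ring
  have hD2 : D σ ≤ (400000 * C + 700000) * Real.sqrt L := by
    have h9 : 400000 * C ≤ 400000 * C * Real.sqrt L := by
      apply le_mul_of_one_le_right (by positivity) hsL1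
    have h10 : Z σ ≤ 2 * Real.sqrt L := hZ.trans hsq
    nlinarith
  have h11 : D σ * Z σ ≤ (400000 * C + 700000) * 2 * L := by
    calc D σ * Z σ ≤ ((400000 * C + 700000) * Real.sqrt L) * Z σ :=
          mul_le_mul_of_nonneg_right hD2 (Z_nonneg σ)
      _ ≤ ((400000 * C + 700000) * Real.sqrt L) * (2 * Real.sqrt L) := by
          gcongr
          exact hZ.trans hsq
      _ = (400000 * C + 700000) * 2 * (Real.sqrt L * Real.sqrt L) := by ring
      _ = _ := by rw [Real.mul_self_sqrt hL0.le]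
  have h12 : L ≤ 3 * Real.log Y := by
    rw [hLdef]; linarith
  calc Real.exp 1 * (D σ * Z σ) ≤ Real.exp 1 * ((400000 * C + 700000) * 2 * L) := by gcongr
    _ ≤ Real.exp 1 * ((400000 * C + 700000) * 2 * (3 * Real.log Y)) := by gcongr
    _ = _ := by ring


theorem stmtFirst2 : Vale.Agent.P017.R3.StmtFirst2 :=
  stmtFirst2_of Vale.Agent.P017.R2.H160.stmtEP Vale.Agent.P017.R2.H160.stmtLB
    Vale.Agent.P017.R2.H285.stmtPS1 Vale.Agent.P017.R2.H285.stmtPS2 Vale.Agent.P017.R2.H918.stmtBL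

end Vale.Agent.P017.R3.H985
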