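import Vale.Agent.P017.R3.H985.Final
import Vale.Agent.P017.R3.H985.D1a
import Vale.Agent.P017.R3.H985.First2
import Vale.Agent.P017.R2.H916.Id
import Vale.Agent.P017.R3.H68.B1
import Vale.Agent.P017.R3.H101.Ex
import Vale.Agent.P017.R3.H160.Same
import Vale.Agent.P017.R3.H160.Smooth
import Vale.Agent.P017.R3.H222.Asm
import Vale.Agent.P017.R3.H224.Dict
import Vale.Agent.P017.R3.H224.Red2
import Vale.Agent.P017.R3.H224.S1
import Vale.Agent.P017.R3.H224.S2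
import Vale.Agent.P017.R3.H237.LA
import Vale.Agent.P017.R3.H285.CellGen
import Vale.Agent.P017.R3.H285.RM
import Vale.Agent.P017.R3.H285.RMg
import Vale.Agent.P017.R3.H441.Sieve
import Vale.Agent.P017.R3.H445.Ck
import Vale.Agent.P017.R3.H445.TK
import Vale.Agent.P017.R3.H524.Num
import Vale.Agent.P017.R3.H524.Num4
import Vale.Agent.P017.R3.H816.D1b
import Vale.Agent.P017.R3.H916.LA1

/-!
# P017 density project: assembly
-/

namespace Vale.Agent.P017.R3.H985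

open Vale.Agent.P017.H185

universe u

/-- the two density theorems -/
theorem dens : S1.StmtDens ∧ S2.StmtDens := by
  have hD : StmtDict := H224.stmtDict
  have hsv : StmtSieve := H441.stmtSieve
  have hck : StmtCk := H445.stmtCk stmtFirst2 Vale.Agent.P017.R2.H916.stmtId hsv hD
  have hex : StmtEx := H101.stmtEx H68.stmtBad'
  have htk : StmtTK := H445.stmtTK H68.stmtPNT
  have hasm := H222.stmtAsmGen htk H160.stmtSmooth H160.stmtSame hck hex
  have hrm : StmtRM := H285.stmtRM H916.stmtLA1 H237.stmtLA2 H237.stmtLA3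
  have hrmg : StmtRMg := H285.stmtRMg H916.stmtLA1 H237.stmtLA2 H237.stmtLA3g
  have hs1 := H224.stmtS1
  have hs2 := H224.stmtS2 (stmtD1_of stmtD1a H816.stmtD1b) hrmg
  exact ⟨hasm S1 hs1.1 (H285.stmtCellGen S1 hs1.1) (hs1.2 hrm),
    hasm S2 hs2.1 (H285.stmtCellGen S2 hs2.1) hs2.2⟩

theorem ten_all : ∃ X₀ : ℕ, ∀ X : ℕ, X₀ ≤ X →
    (10 / 100 : ℝ) * ({n : ℕ | n ≤ X ∧ IsFund n}.ncard : ℝ) ≤
      ({n : ℕ | n ≤ X ∧ IsFund n ∧
        ∀ (K : Type u) [Field K] [NumberField K] [Algebra.IsQuadraticExtension ℚ K] (θ : K),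
          θ ^ 2 = -(n : K) → Finite (X015.baseChange K).toAffine.Point}.ncard : ℝ) :=
  ten dens.1 dens.2 H524.stmtNum2 H524.stmtNum3 H524.stmtNum4

theorem rel_all : ∀ c : ℝ, c < eta →
    ∃ X₀ : ℕ, ∀ X : ℕ, X₀ ≤ X →
    c * ({n : ℕ | n ≤ X ∧ Squarefree n ∧ n % 4 = 3 ∧ (OKc n ∨ OK2 n)}.ncard : ℝ) ≤
      ({n : ℕ | n ≤ X ∧ Squarefree n ∧ n % 4 = 3 ∧ (OKc n ∨ OK2 n) ∧
        ∀ (K : Type u) [Field K] [NumberField K] [Algebra.IsQuadraticExtension ℚ K] (θ : K),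
          θ ^ 2 = -(n : K) → Finite (X015.baseChange K).toAffine.Point}.ncard : ℝ) :=
  rel dens.1 dens.2 H524.stmtNum4

end Vale.Agent.P017.R3.H985
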