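import Vale.Agent.P017.R3.D1

/-!
# P017 density project: from the density theorems of the two systems to ten percent of all
imaginary quadratic fields
-/

open Finset NumberField

namespace Vale.Agent.P017.R3.H985

open Vale.Agent.P017.H185

universe u

/-- finiteness, system 1 -/
theorem finite1 {d : ℕ} (hd : Squarefree d) (h4 : d % 4 = 3) (hok : OKc d) (hR : Redei d)
    (K : Type u) [Field K] [NumberField K] [Algebra.IsQuadraticExtension ℚ K] (θ : K)
    (hθ : θ ^ 2 = -(d : K)) : Finite (X015.baseChange K).toAffine.Point := by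
  obtain ⟨q⟩ := exists_QF_of_sqrt hd hθ
  apply q.finite_of_cond (q.no_order_four h4 hR)
  · intro h3 h
    have h1 : ((d : ℕ) : ZMod 3) = ((1 : ℕ) : ZMod 3) := by rw [h]; simp
    have h2 := (ZMod.natCast_eq_natCast_iff _ _ _).mp h1
    have h3' : d % 3 = 1 % 3 := h2
    rcases hok.1 with h5 | h5
    · exact h3 h5
    · omega
  · intro h5 h
    rcases hok.2 with hr | hr | hr
    · exact h5 hr
    · have h1 : ((d : ℕ) : ZMod 5) = ((2 : ℕ) : ZMod 5) := by
        rw [ZMod.natCast_eq_natCast_iff]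
        show d % 5 = 2 % 5
        omega
      rw [h1] at h
      revert h
      decide
    · have h1 : ((d : ℕ) : ZMod 5) = ((3 : ℕ) : ZMod 5) := by
        rw [ZMod.natCast_eq_natCast_iff]
        show d % 5 = 3 % 5
        omega
      rw [h1] at h
      revert h
      decide

/-- finiteness, system 2 -/
theorem finite2 {d : ℕ} (hd : Squarefree d) (h4 : d % 4 = 3) (hR : Rd2 d)
    (K : Type u) [Field K] [NumberField K] [Algebra.IsQuadraticExtension ℚ K] (θ : K)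
    (hθ : θ ^ 2 = -(d : K)) : Finite (X015.baseChange K).toAffine.Point := by
  obtain ⟨q⟩ := exists_QF_of_sqrt hd hθ
  have hd0 : (d : ℚ) ≠ 0 := by exact_mod_cast q.d_pos.ne'
  obtain ⟨h1, h2⟩ := hR h4
  exact finite_X015 K (finite_EK q finite_EQ' (finite_ED hd0 h1 h2))

/-- the two classes are disjoint -/
theorem disj {d : ℕ} (h1 : OKc d) (h2 : OK2 d) : False := by
  obtain ⟨h3, -⟩ := h1
  obtain ⟨h4, -⟩ := h2
  omega

/-- ten percent -/
theorem ten (h1 : S1.StmtDens) (h2 : S2.StmtDens) (hn2 : StmtNum2) (hn3 : StmtNum3)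
    (hn4 : StmtNum4) : ∃ X₀ : ℕ, ∀ X : ℕ, X₀ ≤ X →
    (10 / 100 : ℝ) * ({n : ℕ | n ≤ X ∧ IsFund n}.ncard : ℝ) ≤
      ({n : ℕ | n ≤ X ∧ IsFund n ∧
        ∀ (K : Type u) [Field K] [NumberField K] [Algebra.IsQuadraticExtension ℚ K] (θ : K),
          θ ^ 2 = -(n : K) → Finite (X015.baseChange K).toAffine.Point}.ncard : ℝ) := by
  classical
  obtain ⟨A, hA⟩ := h1 (2887 / 10000) (1 / 200000) hn3 (by norm_num)
  obtain ⟨B, hB⟩ := h2 (2887 / 10000) (1 / 200000) hn3 (by norm_num)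
  obtain ⟨C, hC⟩ := hn2
  obtain ⟨D, hD⟩ := hn4
  refine ⟨A + B + C + D, fun X hX => ?_⟩
  have hA' := hA X (by omega)
  have hB' := hB X (by omega)
  have hC' := hC X (by omega)
  have hD' := hD X (by omega)
  -- the denominator
  have e1 : {n : ℕ | n ≤ X ∧ IsFund n} = (((Icc 1 X).filter IsFund : Finset ℕ) : Set ℕ) := by
    ext n
    rw [Set.mem_ofPred_eq, Finset.mem_coe, mem_filter, mem_Icc]
    constructor
    · rintro ⟨h, h'⟩
      refine ⟨⟨?_, h⟩, h'⟩
      rcases h' with h' | ⟨m, hm, h', -⟩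
      · exact Nat.one_le_iff_ne_zero.mpr h'.1.ne_zero
      · have := h'.ne_zero
        omega
    · rintro ⟨⟨_, h⟩, h'⟩
      exact ⟨h, h'⟩
  have e2 : (({n : ℕ | n ≤ X ∧ IsFund n}.ncard : ℕ) : ℝ) ≤ 30397 / 100000 * X := by
    rw [e1, Set.ncard_coe_finset]
    exact hC'
  -- the union
  set F1 := (Icc 1 X).filter (fun d => Squarefree d ∧ d % 4 = 3 ∧ OKc d) with hF1
  set F2 := (Icc 1 X).filter (fun d => Squarefree d ∧ d % 4 = 3 ∧ OK2 d) with hF2
  set G1 := (Icc 1 X).filter (fun d => Squarefree d ∧ d % 4 = 3 ∧ OKc d ∧ Redei d) with hG1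
  set G2 := (Icc 1 X).filter (fun d => Squarefree d ∧ d % 4 = 3 ∧ OK2 d ∧ Rd2 d) with hG2
  have hA'' : (2887 / 10000 : ℝ) * F1.card - 1 / 200000 * X ≤ G1.card := hA'
  have hB'' : (2887 / 10000 : ℝ) * F2.card - 1 / 200000 * X ≤ G2.card := hB'
  have hF : (((Icc 1 X).filter (fun d => Squarefree d ∧ d % 4 = 3 ∧ (OKc d ∨ OK2 d))).card : ℝ) ≤
      F1.card + F2.card := by
    have : (Icc 1 X).filter (fun d => Squarefree d ∧ d % 4 = 3 ∧ (OKc d ∨ OK2 d)) ⊆ F1 ∪ F2 := by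
      intro d hd
      rw [mem_filter] at hd
      rw [mem_union, hF1, hF2, mem_filter, mem_filter]
      rcases hd.2.2.2 with h | h
      · exact Or.inl ⟨hd.1, hd.2.1, hd.2.2.1, h⟩
      · exact Or.inr ⟨hd.1, hd.2.1, hd.2.2.1, h⟩
    exact_mod_cast (card_le_card this).trans (card_union_le _ _)
  have hG : (G1.card : ℝ) + G2.card ≤ ({n : ℕ | n ≤ X ∧ IsFund n ∧
        ∀ (K : Type u) [Field K] [NumberField K] [Algebra.IsQuadraticExtension ℚ K] (θ : K),
          θ ^ 2 = -(n : K) → Finite (X015.baseChange K).toAffine.Point}.ncard : ℝ) := by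
    have hdisj : Disjoint G1 G2 := by
      rw [disjoint_left]
      intro d h h'
      rw [hG1, mem_filter] at h
      rw [hG2, mem_filter] at h'
      exact disj h.2.2.2.1 h'.2.2.2.1
    have hfin : {n : ℕ | n ≤ X ∧ IsFund n ∧
        ∀ (K : Type u) [Field K] [NumberField K] [Algebra.IsQuadraticExtension ℚ K] (θ : K),
          θ ^ 2 = -(n : K) → Finite (X015.baseChange K).toAffine.Point}.Finite :=
      (Set.finite_Iic X).subset fun d hd => hd.1
    have h3 : (G1.card : ℝ) + G2.card = ((G1 ∪ G2).card : ℝ) := by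
      rw [card_union_of_disjoint hdisj]; push_cast; ring
    rw [h3, ← Set.ncard_coe_finset]
    apply Nat.cast_le.mpr
    apply Set.ncard_le_ncard _ hfin
    intro d hd
    rw [Finset.mem_coe, mem_union] at hd
    rcases hd with hd | hd
    · rw [hG1, mem_filter, mem_Icc] at hd
      obtain ⟨⟨_, hdX⟩, hsq, h4, hok, hR⟩ := hd
      exact ⟨hdX, Or.inl ⟨hsq, h4⟩, fun K _ _ _ θ hθ => finite1 hsq h4 hok hR K θ hθ⟩
    · rw [hG2, mem_filter, mem_Icc] at hd
      obtain ⟨⟨_, hdX⟩, hsq, h4, _, hR⟩ := hd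
      exact ⟨hdX, Or.inl ⟨hsq, h4⟩, fun K _ _ _ θ hθ => finite2 hsq h4 hR K θ hθ⟩
  refine le_trans ?_ hG
  have hX0 : (0 : ℝ) ≤ X := Nat.cast_nonneg X
  nlinarith

/-- every proportion below `∏ (1 - 2^{-i})` of the two classes together -/
theorem rel (h1 : S1.StmtDens) (h2 : S2.StmtDens) (hn4 : StmtNum4) : ∀ c : ℝ, c < eta →
    ∃ X₀ : ℕ, ∀ X : ℕ, X₀ ≤ X →
    c * ({n : ℕ | n ≤ X ∧ Squarefree n ∧ n % 4 = 3 ∧ (OKc n ∨ OK2 n)}.ncard : ℝ) ≤
      ({n : ℕ | n ≤ X ∧ Squarefree n ∧ n % 4 = 3 ∧ (OKc n ∨ OK2 n) ∧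
        ∀ (K : Type u) [Field K] [NumberField K] [Algebra.IsQuadraticExtension ℚ K] (θ : K),
          θ ^ 2 = -(n : K) → Finite (X015.baseChange K).toAffine.Point}.ncard : ℝ) := by
  classical
  intro c hc
  obtain ⟨η, hcη, hη⟩ := exists_between hc
  have hδ : 0 < (η - c) / 20 := by linarith
  obtain ⟨A, hA⟩ := h1 η ((η - c) / 20) hη hδ
  obtain ⟨B, hB⟩ := h2 η ((η - c) / 20) hη hδ
  obtain ⟨D, hD⟩ := hn4
  refine ⟨A + B + D, fun X hX => ?_⟩
  have hA' := hA X (by omega)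
  have hB' := hB X (by omega)
  have hD' := hD X (by omega)
  have e1 : {n : ℕ | n ≤ X ∧ Squarefree n ∧ n % 4 = 3 ∧ (OKc n ∨ OK2 n)} =
      (((Icc 1 X).filter (fun d => Squarefree d ∧ d % 4 = 3 ∧ (OKc d ∨ OK2 d)) : Finset ℕ) :
        Set ℕ) := by
    ext n
    rw [Set.mem_ofPred_eq, Finset.mem_coe, mem_filter, mem_Icc]
    constructor
    · rintro ⟨h, h'⟩
      exact ⟨⟨Nat.one_le_iff_ne_zero.mpr h'.1.ne_zero, h⟩, h'⟩
    · rintro ⟨⟨_, h⟩, h'⟩
      exact ⟨h, h'⟩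
  rw [e1, Set.ncard_coe_finset]
  set F1 := (Icc 1 X).filter (fun d => Squarefree d ∧ d % 4 = 3 ∧ OKc d) with hF1
  set F2 := (Icc 1 X).filter (fun d => Squarefree d ∧ d % 4 = 3 ∧ OK2 d) with hF2
  set G1 := (Icc 1 X).filter (fun d => Squarefree d ∧ d % 4 = 3 ∧ OKc d ∧ Redei d) with hG1
  set G2 := (Icc 1 X).filter (fun d => Squarefree d ∧ d % 4 = 3 ∧ OK2 d ∧ Rd2 d) with hG2
  set F := (Icc 1 X).filter (fun d => Squarefree d ∧ d % 4 = 3 ∧ (OKc d ∨ OK2 d)) with hF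
  have hA'' : η * F1.card - (η - c) / 20 * X ≤ G1.card := hA'
  have hB'' : η * F2.card - (η - c) / 20 * X ≤ G2.card := hB'
  have hDF : (1055 / 10000 : ℝ) * X ≤ F.card := hD'
  have hF12 : (F.card : ℝ) = F1.card + F2.card := by
    have hdisj : Disjoint F1 F2 := by
      rw [disjoint_left]
      intro d h h'
      rw [hF1, mem_filter] at h
      rw [hF2, mem_filter] at h'
      exact disj h.2.2.2 h'.2.2.2
    have : F = F1 ∪ F2 := by
      ext d
      rw [mem_union, hF, hF1, hF2, mem_filter, mem_filter, mem_filter]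
      tauto
    rw [this, card_union_of_disjoint hdisj]
    push_cast
    ring
  have hG : (G1.card : ℝ) + G2.card ≤
      ({n : ℕ | n ≤ X ∧ Squarefree n ∧ n % 4 = 3 ∧ (OKc n ∨ OK2 n) ∧
        ∀ (K : Type u) [Field K] [NumberField K] [Algebra.IsQuadraticExtension ℚ K] (θ : K),
          θ ^ 2 = -(n : K) → Finite (X015.baseChange K).toAffine.Point}.ncard : ℝ) := by
    have hdisj : Disjoint G1 G2 := by
      rw [disjoint_left]
      intro d h h'
      rw [hG1, mem_filter] at h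
      rw [hG2, mem_filter] at h'
      exact disj h.2.2.2.1 h'.2.2.2.1
    have hfin : {n : ℕ | n ≤ X ∧ Squarefree n ∧ n % 4 = 3 ∧ (OKc n ∨ OK2 n) ∧
        ∀ (K : Type u) [Field K] [NumberField K] [Algebra.IsQuadraticExtension ℚ K] (θ : K),
          θ ^ 2 = -(n : K) → Finite (X015.baseChange K).toAffine.Point}.Finite :=
      (Set.finite_Iic X).subset fun d hd => hd.1
    have h3 : (G1.card : ℝ) + G2.card = ((G1 ∪ G2).card : ℝ) := by
      rw [card_union_of_disjoint hdisj]; push_cast; ring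
    rw [h3, ← Set.ncard_coe_finset]
    apply Nat.cast_le.mpr
    apply Set.ncard_le_ncard _ hfin
    intro d hd
    rw [Finset.mem_coe, mem_union] at hd
    rcases hd with hd | hd
    · rw [hG1, mem_filter, mem_Icc] at hd
      obtain ⟨⟨_, hdX⟩, hsq, h4, hok, hR⟩ := hd
      exact ⟨hdX, hsq, h4, Or.inl hok, fun K _ _ _ θ hθ => finite1 hsq h4 hok hR K θ hθ⟩
    · rw [hG2, mem_filter, mem_Icc] at hd
      obtain ⟨⟨_, hdX⟩, hsq, h4, hok, hR⟩ := hd
      exact ⟨hdX, hsq, h4, Or.inr hok, fun K _ _ _ θ hθ => finite2 hsq h4 hR K θ hθ⟩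
  refine le_trans ?_ hG
  have hX0 : (0 : ℝ) ≤ X := Nat.cast_nonneg X
  have h5 : 0 < η - c := by linarith
  have h6 : η * (F.card : ℝ) = η * F1.card + η * F2.card := by rw [hF12]; ring
  have h7 := mul_le_mul_of_nonneg_left hDF h5.le
  have h8 := mul_nonneg h5.le hX0
  linarith

end Vale.Agent.P017.R3.H985
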